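import Vale.Agent.P248.Self
import Vale.Agent.P248.Body
import Vale.Agent.P248.Eqv
import Vale.Agent.P248.Mult
import Vale.Agent.P248.Beta
import Vale.Agent.P248.Hull
import Vale.Agent.P248.Slice
import Vale.Agent.P248.Vpol
import Vale.Agent.P248.VJ
import Vale.Agent.P248.OPT

namespace Vale.Agent.Results.P248.JoinVolumeProduct

open Vale.Agent.P248 MeasureTheory ENNReal

/-- (1) The join `K * L ⊆ ℝ^(k+l+1)` of two convex bodies `K ⊆ ℝ^k`, `L ⊆ ℝ^l` is a convex body, the
convex hull of `K × 0 × 0` and `0 × L × 1`, and the volume product normalised by the value of the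
simplex is multiplicative: `P(K * L) / S(k+l+1) = (P(K) / S(k)) (P(L) / S(l))`; (2) for the cone over
`K`: `P(cone K) / S(k+1) = P(K) / S(k)`; (3) hence the conjectured inequality passes from `K` and
`L` to `K * L`, with equality for `K * L` exactly if there is equality for `K` and for `L`; (4) every
lower bound `P(K) ≥ c θ^n S(n)` (all `n`, all bodies) improves itself to `P(K) ≥ θ^(n+1) S(n)`;
(5) the conjectured inequality for all `n` and all bodies follows from (so is equivalent to) its
asymptotic form with a loss `c_ε (1-ε)^n` for every `ε`. -/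
theorem result :
    (∀ (ι κ : Type) [Fintype ι] [Fintype κ] (K : Set (ι → ℝ)) (L : Set (κ → ℝ)),
      IsBody K → IsBody L → IsBody (join K L) ∧
      join K L = convexHull ℝ ({w | ∃ x ∈ K, w = jpt x 0 0} ∪ {w | ∃ y ∈ L, w = jpt 0 y 1}) ∧
      volProd (join K L) / simplexVal (Fintype.card ι + Fintype.card κ + 1) =
        (volProd K / simplexVal (Fintype.card ι)) * (volProd L / simplexVal (Fintype.card κ))) ∧
    (∀ (ι : Type) [Fintype ι] (K : Set (ι → ℝ)), IsBody K →
      volProd (join K (Set.univ : Set (Empty → ℝ))) / simplexVal (Fintype.card ι + 1) =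
        volProd K / simplexVal (Fintype.card ι)) ∧
    (∀ (ι κ : Type) [Fintype ι] [Fintype κ] (K : Set (ι → ℝ)) (L : Set (κ → ℝ)),
      IsBody K → IsBody L → simplexVal (Fintype.card ι) ≤ volProd K →
      simplexVal (Fintype.card κ) ≤ volProd L →
      simplexVal (Fintype.card ι + Fintype.card κ + 1) ≤ volProd (join K L) ∧
      (volProd (join K L) = simplexVal (Fintype.card ι + Fintype.card κ + 1) ↔
        volProd K = simplexVal (Fintype.card ι) ∧ volProd L = simplexVal (Fintype.card κ))) ∧
    (∀ θ : ℝ, 0 < θ → (∃ c : ℝ, 0 < c ∧ ∀ (ι : Type) [Fintype ι] (K : Set (ι → ℝ)), IsBody K →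
        ENNReal.ofReal (c * θ ^ Fintype.card ι) * simplexVal (Fintype.card ι) ≤ volProd K) →
      ∀ (ι : Type) [Fintype ι] (K : Set (ι → ℝ)), IsBody K →
        ENNReal.ofReal (θ ^ (Fintype.card ι + 1)) * simplexVal (Fintype.card ι) ≤ volProd K) ∧
    ((∀ ε : ℝ, 0 < ε → ε < 1 → ∃ c : ℝ, 0 < c ∧ ∀ (ι : Type) [Fintype ι]
        (K : Set (ι → ℝ)), IsBody K →
        ENNReal.ofReal (c * (1 - ε) ^ Fintype.card ι) * simplexVal (Fintype.card ι) ≤ volProd K) →
      ∀ (ι : Type) [Fintype ι] (K : Set (ι → ℝ)), IsBody K →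
        simplexVal (Fintype.card ι) ≤ volProd K) := by
  have hM : S_MULT := mult (vj beta eqv) (vpol (vs (betas beta) slice) shear eqv) int_ opt
  refine ⟨?_, ?_, ?_, ?_, ?_⟩
  · intro ι κ _ _ K L hK hL
    exact ⟨body ι κ K L hK hL, hull ι κ K L hK hL, hM ι κ K L hK hL⟩
  · intro ι _ K hK
    exact cone_ hM hK
  · intro ι κ _ _ K L hK hL h1 h2
    exact closure_ hM hK hL h1 h2
  · intro θ hθ H ι _ K hK
    exact self_improve hM body θ hθ H ι K hK
  · exact asym hM body

end Vale.Agent.Results.P248.JoinVolumeProduct
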